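import Vale.Agent.Lib.P355.Final

/-!
# P355: a Bruck-Ryser type theorem for seven mutually unbiased bases in dimension six
-/

namespace Vale.Agent.Results.P355.BruckRyser

theorem six_rat (p q : ℚ) (h : p ^ 2 + q ^ 2 = 6) : False := by
  have h1 : (p.num.natAbs * q.den) ^ 2 + (q.num.natAbs * p.den) ^ 2 =
      6 * (p.den * q.den) ^ 2 := by
    have hp : (p.den : ℚ) ≠ 0 := by exact_mod_cast p.den_ne_zero
    have hq : (q.den : ℚ) ≠ 0 := by exact_mod_cast q.den_ne_zero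
    have e1 : (p.num : ℚ) = p * p.den := (Rat.mul_den_eq_num p).symm
    have e2 : (q.num : ℚ) = q * q.den := (Rat.mul_den_eq_num q).symm
    have h2 : ((p.num : ℚ) * q.den) ^ 2 + (q.num * p.den) ^ 2 = 6 * (p.den * q.den) ^ 2 := by
      rw [e1, e2, ← h]
      ring
    have h3 : ((p.num * q.den) ^ 2 + (q.num * p.den) ^ 2 : ℤ) = 6 * (p.den * q.den) ^ 2 := by
      exact_mod_cast h2
    have h4 : (((p.num.natAbs * q.den) ^ 2 + (q.num.natAbs * p.den) ^ 2 : ℕ) : ℤ) =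
        ((6 * (p.den * q.den) ^ 2 : ℕ) : ℤ) := by
      push_cast
      rw [mul_pow, mul_pow, sq_abs, sq_abs, ← mul_pow, ← mul_pow]
      exact h3
    exact_mod_cast h4
  have hc : p.den * q.den ≠ 0 := mul_ne_zero p.den_ne_zero q.den_ne_zero
  have h2 := Nat.eq_sq_add_sq_iff.mp ⟨_, _, h1.symm⟩ (q := 3) (by
    rw [Nat.mem_primeFactors]
    exact ⟨Nat.prime_three, ⟨2 * (p.den * q.den) ^ 2, by ring⟩, by positivity⟩) (by norm_num)
  have : Fact (Nat.Prime 3) := ⟨Nat.prime_three⟩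
  rw [padicValNat.mul (by norm_num) (by positivity), padicValNat.pow] at h2
  have h6 : padicValNat 3 6 = 1 := by
    rw [show (6 : ℕ) = 3 * 2 by norm_num, padicValNat.mul (by norm_num) (by norm_num),
      padicValNat_self, padicValNat_primes (p := 3) (q := 2) (by norm_num)]
  rw [h6] at h2
  exact Nat.not_even_iff_odd.mpr (by
    rw [add_comm]
    exact (even_two_mul _).add_one) h2

/-- Suppose that there are seven pairwise mutually unbiased orthonormal bases of `ℂ⁶` all of whose vectors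
are complex multiples of vectors with coordinates in `K`, where `K` is a subfield of `ℂ` closed under complex
conjugation.  Then `i ∈ K` and six is a sum of two squares of real numbers of `K`; in particular `K ∩ ℝ ≠ ℚ`. -/
theorem result (K : Subfield ℂ) (hK : ∀ z ∈ K, (starRingEnd ℂ) z ∈ K)
    (B : Fin 7 → OrthonormalBasis (Fin 6) ℂ (EuclideanSpace ℂ (Fin 6)))
    (hunb : ∀ a b, a ≠ b → ∀ i j, ‖inner ℂ (B a i) (B b j)‖ ^ 2 = 1 / 6)
    (hB : ∀ a i, ∃ c : ℂ, c ≠ 0 ∧ ∀ k, c * B a i k ∈ K) :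
    Complex.I ∈ K ∧ (∃ x y : ℝ, (x : ℂ) ∈ K ∧ (y : ℂ) ∈ K ∧ x ^ 2 + y ^ 2 = 6) ∧
      ∃ x : ℝ, (x : ℂ) ∈ K ∧ Irrational x := by
  obtain ⟨h1, x, y, hx, hy, hxy⟩ := _root_.P355.bruck_ryser hK B hunb hB
  refine ⟨h1, ⟨x, y, hx, hy, hxy⟩, ?_⟩
  by_contra hc
  push Not at hc
  have hx' : x ∈ Set.range ((↑) : ℚ → ℝ) := not_not.mp (hc x hx)
  have hy' : y ∈ Set.range ((↑) : ℚ → ℝ) := not_not.mp (hc y hy)
  obtain ⟨p, rfl⟩ := hx'
  obtain ⟨q, rfl⟩ := hy'
  exact six_rat p q (by exact_mod_cast hxy)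

end Vale.Agent.Results.P355.BruckRyser
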