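import Vale.Agent.Lib.P355.Final

/-!
# P355: the field of definition of a complete set of mutually unbiased bases in dimension six

Every set of seven pairwise mutually unbiased orthonormal bases of `ℂ⁶` (if there is one) has a field of
definition `F`, generated by the products `v_k conj(v_l)` of the coordinates of the basis vectors (the
entries of the 42 rank one projections; they do not depend on the phases of the vectors).  We prove
arithmetic constraints on `F`.
-/

namespace Vale.Agent.Results.P355.FieldOfDefinition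

open _root_.P355

theorem dvd_of_toZMod {p : ℕ} [Fact p.Prime] {X : ℤ_[p]} (h : PadicInt.toZMod X = 0) :
    ∃ X' : ℤ_[p], X = p * X' := by
  have h1 : X ∈ RingHom.ker (PadicInt.toZMod (p := p)) := h
  rw [PadicInt.ker_toZMod, PadicInt.maximalIdeal_eq_span_p, Ideal.mem_span_singleton] at h1
  exact h1

theorem no_three_int (k : ℕ) : ∀ X Y : ℤ_[3], X ^ 2 + Y ^ 2 ≠ 6 * 9 ^ k := by
  induction k with
  | zero =>
    intro X Y h
    have h1 := congrArg (PadicInt.toZModPow 2) h
    simp only [map_add, map_pow, pow_zero, mul_one, map_ofNat] at h1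
    revert h1
    generalize PadicInt.toZModPow 2 X = a
    generalize PadicInt.toZModPow 2 Y = b
    revert a b
    decide
  | succ k ih =>
    intro X Y h
    have h1 := congrArg (PadicInt.toZMod (p := 3)) h
    have h2 : PadicInt.toZMod X = 0 ∧ PadicInt.toZMod Y = 0 := by
      have h9 : (PadicInt.toZMod (p := 3)) (6 * 9 ^ (k + 1)) = 0 := by
        rw [map_mul, map_ofNat]
        have : (OfNat.ofNat 6 : ZMod 3) = 0 := by decide
        rw [this, zero_mul]
      rw [h9] at h1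
      simp only [map_add, map_pow] at h1
      revert h1
      generalize PadicInt.toZMod X = a
      generalize PadicInt.toZMod Y = b
      revert a b
      decide
    obtain ⟨X', hX⟩ := dvd_of_toZMod h2.1
    obtain ⟨Y', hY⟩ := dvd_of_toZMod h2.2
    apply ih X' Y'
    have h3 : (9 : ℤ_[3]) * (X' ^ 2 + Y' ^ 2) = 9 * (6 * 9 ^ k) := by
      rw [hX, hY] at h
      push_cast at h
      linear_combination h
    exact mul_left_cancel₀ (by norm_num) h3

theorem no_two_int (k : ℕ) : ∀ X Y : ℤ_[2], X ^ 2 + Y ^ 2 ≠ 6 * 4 ^ k := by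
  induction k with
  | zero =>
    intro X Y h
    have h1 := congrArg (PadicInt.toZModPow 3) h
    simp only [map_add, map_pow, pow_zero, mul_one, map_ofNat] at h1
    revert h1
    generalize PadicInt.toZModPow 3 X = a
    generalize PadicInt.toZModPow 3 Y = b
    revert a b
    decide
  | succ k ih =>
    intro X Y h
    have par : ∀ Z : ℤ_[2], ∃ Z' : ℤ_[2], Z = 2 * Z' ∨ Z = 2 * Z' + 1 := by
      intro Z
      have h0 : PadicInt.toZMod Z = 0 ∨ PadicInt.toZMod (Z - 1) = 0 := by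
        rw [map_sub, map_one]
        generalize PadicInt.toZMod Z = a
        revert a
        decide
      rcases h0 with h0 | h0
      · obtain ⟨Z', hZ⟩ := dvd_of_toZMod h0
        exact ⟨Z', Or.inl (by rw [hZ]; push_cast; rfl)⟩
      · obtain ⟨Z', hZ⟩ := dvd_of_toZMod h0
        refine ⟨Z', Or.inr ?_⟩
        push_cast at hZ
        linear_combination hZ
    obtain ⟨X', hX⟩ := par X
    obtain ⟨Y', hY⟩ := par Y
    have h4 : (PadicInt.toZModPow (p := 2) 2) (6 * 4 ^ (k + 1)) = 0 := by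
      have e4 : (6 : ℤ_[2]) * 4 ^ (k + 1) = 4 * (6 * 4 ^ k) := by ring
      have this : (PadicInt.toZModPow (p := 2) 2) 4 = 0 := by
        rw [map_ofNat]
        decide
      rw [e4, map_mul, this, zero_mul]
    have h1 := congrArg (PadicInt.toZModPow 2) h
    rw [h4] at h1
    rcases hX with hX | hX <;> rcases hY with hY | hY
    · apply ih X' Y'
      have h3 : (4 : ℤ_[2]) * (X' ^ 2 + Y' ^ 2) = 4 * (6 * 4 ^ k) := by
        rw [hX, hY] at h
        linear_combination h
      exact mul_left_cancel₀ (by norm_num) h3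
    all_goals
      exfalso
      rw [hX, hY] at h1
      simp only [map_add, map_pow, map_mul, map_ofNat, map_one] at h1
      revert h1
      generalize PadicInt.toZModPow 2 X' = a
      generalize PadicInt.toZModPow 2 Y' = b
      revert a b
      decide

theorem no_padic {p : ℕ} [Fact p.Prime] (H : ∀ (k : ℕ) (X Y : ℤ_[p]), X ^ 2 + Y ^ 2 ≠ 6 * (p ^ 2) ^ k)
    (x y : ℚ_[p]) (h : x ^ 2 + y ^ 2 = 6) : False := by
  obtain ⟨k, hk⟩ : ∃ k : ℕ, max ‖x‖ ‖y‖ ≤ (p : ℝ) ^ k := by
    have h1 : (1 : ℝ) < p := by exact_mod_cast (Fact.out : p.Prime).one_lt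
    obtain ⟨k, hk⟩ := pow_unbounded_of_one_lt (max ‖x‖ ‖y‖) h1
    exact ⟨k, hk.le⟩
  have hp0 : (0 : ℝ) < (p : ℝ) ^ k := by
    have : (0 : ℝ) < p := by exact_mod_cast (Fact.out : p.Prime).pos
    positivity
  have hn : ∀ z : ℚ_[p], ‖z‖ ≤ (p : ℝ) ^ k → ‖(p : ℚ_[p]) ^ k * z‖ ≤ 1 := by
    intro z hz
    rw [norm_mul, norm_pow, Padic.norm_p, inv_pow]
    rw [inv_mul_le_iff₀ hp0, mul_one]
    exact hz
  have hx := hn x (le_trans (le_max_left _ _) hk)
  have hy := hn y (le_trans (le_max_right _ _) hk)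
  apply H k ⟨(p : ℚ_[p]) ^ k * x, hx⟩ ⟨(p : ℚ_[p]) ^ k * y, hy⟩
  apply Subtype.ext
  change ((p : ℚ_[p]) ^ k * x) ^ 2 + ((p : ℚ_[p]) ^ k * y) ^ 2 =
    ((6 * ((p : ℤ_[p]) ^ 2) ^ k : ℤ_[p]) : ℚ_[p])
  have h6 : ((6 : ℤ_[p]) : ℚ_[p]) = 6 := by norm_cast
  push_cast
  rw [h6, ← h]
  ring

theorem no_three (x y : ℚ_[3]) (h : x ^ 2 + y ^ 2 = 6) : False := by
  refine no_padic (fun k X Y h' => no_three_int k X Y ?_) x y h
  rw [h']
  norm_num

theorem no_two (x y : ℚ_[2]) (h : x ^ 2 + y ^ 2 = 6) : False := by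
  refine no_padic (fun k X Y h' => no_two_int k X Y ?_) x y h
  rw [h']
  norm_num

theorem no_rat (p q : ℚ) (h : p ^ 2 + q ^ 2 = 6) : False := by
  refine no_three (p : ℚ_[3]) (q : ℚ_[3]) ?_
  exact_mod_cast congrArg (fun t : ℚ => (t : ℚ_[3])) h

/-- complex numbers with rational real and imaginary part -/
def gaussRat : Subring ℂ where
  carrier := {z | ∃ p q : ℚ, z = p + q * Complex.I}
  mul_mem' := by
    rintro _ _ ⟨p, q, rfl⟩ ⟨p', q', rfl⟩
    refine ⟨p * p' - q * q', p * q' + q * p', ?_⟩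
    push_cast
    linear_combination (q * q' : ℂ) * Complex.I_mul_I
  one_mem' := ⟨1, 0, by simp⟩
  add_mem' := by
    rintro _ _ ⟨p, q, rfl⟩ ⟨p', q', rfl⟩
    refine ⟨p + p', q + q', ?_⟩
    push_cast
    ring
  zero_mem' := ⟨0, 0, by simp⟩
  neg_mem' := by
    rintro _ ⟨p, q, rfl⟩
    refine ⟨-p, -q, ?_⟩
    push_cast
    ring

theorem det_mem {n : ℕ} (M : Matrix (Fin n) (Fin n) ℂ) (hM : ∀ i j, M i j ∈ gaussRat) :
    M.det ∈ gaussRat := by
  rw [Matrix.det_apply']
  refine gaussRat.sum_mem fun σ _ => gaussRat.mul_mem ?_ (gaussRat.prod_mem fun i _ => hM _ _)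
  exact intCast_mem gaussRat _

/-- A real field in which six is a sum of two squares does not have odd degree over `ℚ`. -/
theorem even_degree (R : Subfield ℝ) {x y : ℝ} (hx : x ∈ R) (hy : y ∈ R) (h : x ^ 2 + y ^ 2 = 6) :
    Even (Module.finrank ℚ R) := by
  by_contra hodd
  rw [Nat.not_even_iff_odd] at hodd
  obtain ⟨m, hm⟩ := hodd
  have hfin : Module.Finite ℚ R := Module.finite_of_finrank_pos (by omega)
  set n := Module.finrank ℚ R with hn
  set b := Module.finBasis ℚ R
  set X : Matrix (Fin n) (Fin n) ℚ := Algebra.leftMulMatrix b ⟨x, hx⟩ with hX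
  set Y : Matrix (Fin n) (Fin n) ℚ := Algebra.leftMulMatrix b ⟨y, hy⟩ with hY
  have hXY : X * Y = Y * X := by
    rw [hX, hY, ← map_mul, ← map_mul, mul_comm]
  have hsum : X * X + Y * Y = (6 : ℚ) • (1 : Matrix (Fin n) (Fin n) ℚ) := by
    rw [hX, hY, ← map_mul, ← map_mul, ← map_add]
    have h6 : (⟨x, hx⟩ * ⟨x, hx⟩ + ⟨y, hy⟩ * ⟨y, hy⟩ : R) = (6 : ℚ) • (1 : R) := by
      apply Subtype.ext
      rw [Algebra.smul_def, mul_one]
      push_cast
      change x * x + y * y = 6
      linarith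
    rw [h6, map_smul, map_one]
  set f : ℚ →+* ℂ := algebraMap ℚ ℂ with hf
  set Xc : Matrix (Fin n) (Fin n) ℂ := f.mapMatrix X with hXc
  set Yc : Matrix (Fin n) (Fin n) ℂ := f.mapMatrix Y with hYc
  have hc1 : Xc * Yc = Yc * Xc := by
    have h1 := congrArg f.mapMatrix hXY
    rwa [map_mul, map_mul] at h1
  have hc2 : Xc * Xc + Yc * Yc = (6 : ℂ) • (1 : Matrix (Fin n) (Fin n) ℂ) := by
    have h1 := congrArg f.mapMatrix hsum
    rw [map_add, map_mul, map_mul] at h1
    rw [hXc, hYc, h1]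
    ext i j
    simp [Matrix.one_apply, apply_ite]
  set Z : Matrix (Fin n) (Fin n) ℂ := Xc + Complex.I • Yc with hZ
  set Z' : Matrix (Fin n) (Fin n) ℂ := Xc - Complex.I • Yc with hZ'
  have hZZ : Z * Z' = (6 : ℂ) • (1 : Matrix (Fin n) (Fin n) ℂ) := by
    rw [← hc2, hZ, hZ']
    rw [add_mul, mul_sub, mul_sub, Matrix.smul_mul, Matrix.smul_mul, Matrix.mul_smul,
      Matrix.mul_smul, smul_smul, Complex.I_mul_I, hc1, neg_one_smul]
    abel
  have hdet : Z.det * Z'.det = 6 ^ n := by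
    rw [← Matrix.det_mul, hZZ, Matrix.det_smul, Matrix.det_one, mul_one, Fintype.card_fin]
  have hconj : Z'.det = (starRingEnd ℂ) Z.det := by
    rw [RingHom.map_det]
    congr 1
    ext i j
    simp [hZ, hZ', hXc, hYc, hf, sub_eq_add_neg]
  obtain ⟨p, q, hpq⟩ := det_mem Z (fun i j => ⟨X i j, Y i j, by
    simp [hZ, hXc, hYc, hf, mul_comm]⟩)
  have h1 : (p ^ 2 + q ^ 2 : ℚ) = 6 ^ n := by
    rw [hconj, hpq] at hdet
    have h2 : (((p ^ 2 + q ^ 2 : ℚ)) : ℂ) = ((6 ^ n : ℚ) : ℂ) := by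
      push_cast
      rw [← hdet]
      simp only [map_add, map_mul, Complex.conj_I, map_ratCast]
      linear_combination (q : ℂ) ^ 2 * Complex.I_mul_I
    exact_mod_cast h2
  apply no_rat (p / 6 ^ m) (q / 6 ^ m)
  rw [div_pow, div_pow, ← add_div, h1, hm, div_eq_iff (by positivity)]
  ring

/-- the real and imaginary parts of the elements of a conjugation-closed field containing `i` -/
theorem finrank_eq (F : Subfield ℂ) (hK : ∀ z ∈ F, (starRingEnd ℂ) z ∈ F) (hI : Complex.I ∈ F) :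
    Module.finrank ℚ F = 2 * Module.finrank ℚ (F.comap Complex.ofRealHom : Subfield ℝ) := by
  have hre : ∀ z ∈ F, z.re ∈ (F.comap Complex.ofRealHom : Subfield ℝ) := by
    intro z hz
    change ((z.re : ℝ) : ℂ) ∈ F
    have h1 : ((z.re : ℝ) : ℂ) = (z + (starRingEnd ℂ) z) / 2 := by
      rw [Complex.add_conj]
      push_cast
      ring
    rw [h1]
    exact F.div_mem (F.add_mem hz (hK z hz)) (ofNat_mem F 2)
  have him : ∀ z ∈ F, z.im ∈ (F.comap Complex.ofRealHom : Subfield ℝ) := by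
    intro z hz
    have h1 := hre (-Complex.I * z) (F.mul_mem (F.neg_mem hI) hz)
    have h2 : (-Complex.I * z).re = z.im := by simp
    rwa [h2] at h1
  set R : Subfield ℝ := F.comap Complex.ofRealHom with hR
  let e : F ≃ₗ[ℚ] R × R :=
    { toFun := fun z => (⟨(z : ℂ).re, hre z z.2⟩, ⟨(z : ℂ).im, him z z.2⟩)
      invFun := fun w => ⟨((w.1 : ℝ) : ℂ) + ((w.2 : ℝ) : ℂ) * Complex.I,
        F.add_mem w.1.2 (F.mul_mem w.2.2 hI)⟩
      map_add' := by
        intro z w
        ext <;> simp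
      map_smul' := by
        intro c z
        ext <;> simp [Algebra.smul_def]
      left_inv := by
        intro z
        apply Subtype.ext
        exact Complex.re_add_im _
      right_inv := by
        intro w
        ext <;> simp }
  rw [e.finrank_eq]
  by_cases hfin : Module.Finite ℚ R
  · rw [Module.finrank_prod]
    ring
  · have h1 : ¬ Module.Finite ℚ (R × R) := fun h =>
      hfin (Module.Finite.of_surjective (LinearMap.fst ℚ R R) LinearMap.fst_surjective)
    rw [Module.finrank_of_not_finite hfin, Module.finrank_of_not_finite h1]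

/-- Let `v a i` be the `i`-th vector of the `a`-th of seven orthonormal bases of `ℂ⁶` (coordinates `v a i k`),
any two of which are mutually unbiased, and let `F` be the subfield of `ℂ` generated by all products
`v a i k * conj (v a i l)`.  Then `i ∈ F`, six is a sum of two squares of real numbers of `F`, the real
subfield `F ∩ ℝ` contains an irrational number and embeds neither in `ℚ₂` nor in `ℚ₃`, and the degree
`[F : ℚ]` is infinite or divisible by four (`Module.finrank` is `0` for infinite degree). -/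
theorem result (v : Fin 7 → Fin 6 → Fin 6 → ℂ)
    (horth : ∀ a i j, ∑ k, (starRingEnd ℂ) (v a i k) * v a j k = if i = j then 1 else 0)
    (hunb : ∀ a b, a ≠ b → ∀ i j, ‖∑ k, (starRingEnd ℂ) (v a i k) * v b j k‖ ^ 2 = 1 / 6)
    (F : Subfield ℂ)
    (hF : F = Subfield.closure {z | ∃ a i k l, z = v a i k * (starRingEnd ℂ) (v a i l)}) :
    Complex.I ∈ F ∧
      (∃ x y : ℝ, (x : ℂ) ∈ F ∧ (y : ℂ) ∈ F ∧ x ^ 2 + y ^ 2 = 6) ∧
      (∃ x : ℝ, (x : ℂ) ∈ F ∧ Irrational x) ∧
      IsEmpty ((F.comap Complex.ofRealHom : Subfield ℝ) →+* ℚ_[2]) ∧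
      IsEmpty ((F.comap Complex.ofRealHom : Subfield ℝ) →+* ℚ_[3]) ∧
      4 ∣ Module.finrank ℚ F := by
  set B : Fin 7 → Fin 6 → V6 := fun a i => WithLp.toLp 2 (v a i) with hBdef
  have hin : ∀ a b i j, inner ℂ (B a i) (B b j) = ∑ k, (starRingEnd ℂ) (v a i k) * v b j k := by
    intro a b i j
    rw [hBdef, PiLp.inner_apply]
    refine Finset.sum_congr rfl fun k _ => ?_
    rw [RCLike.inner_apply, mul_comm]
  have h : MUB7 B := by
    refine ⟨fun a i => ?_, fun a i j hij => ?_, fun a b hab i j => ?_⟩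
    · have h2 : ‖B a i‖ ^ 2 = 1 := by
        rw [norm_sq_eq_re_inner (𝕜 := ℂ), hin, horth, if_pos rfl]
        simp
      exact (pow_eq_one_iff_of_nonneg (norm_nonneg _) two_ne_zero).mp h2
    · rw [hin, horth, if_neg hij]
    · rw [hin]
      exact hunb a b hab i j
  have hpr : ∀ a i k l, pr (B a i) k l ∈ F := by
    intro a i k l
    rw [hF]
    exact Subfield.subset_closure ⟨a, i, k, l, rfl⟩
  have hK : ∀ z ∈ F, (starRingEnd ℂ) z ∈ F := by
    have h1 : F ≤ F.comap (starRingEnd ℂ) := by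
      conv_lhs => rw [hF]
      rw [Subfield.closure_le]
      rintro z ⟨a, i, k, l, rfl⟩
      change (starRingEnd ℂ) _ ∈ F
      rw [map_mul, Complex.conj_conj, mul_comm]
      exact hpr a i l k
    exact fun z hz => h1 hz
  have hI := I_mem hK h hpr
  obtain ⟨x, hx, y, hy, hxy⟩ := two_squares (good2 (good6 hK h hpr))
  have hx' : (x : ℂ) ∈ F := hx
  have hy' : (y : ℂ) ∈ F := hy
  have key : ∀ {L : Type} [Field L] (f : (F.comap Complex.ofRealHom : Subfield ℝ) →+* L),
      ∃ a b : L, a ^ 2 + b ^ 2 = 6 := by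
    intro L _ f
    refine ⟨f ⟨x, hx'⟩, f ⟨y, hy'⟩, ?_⟩
    rw [← map_pow, ← map_pow, ← map_add, ← map_ofNat f 6]
    congr 1
    apply Subtype.ext
    push_cast
    exact hxy
  have h2 : IsEmpty ((F.comap Complex.ofRealHom : Subfield ℝ) →+* ℚ_[2]) :=
    ⟨fun f => by
      obtain ⟨a, b, hab⟩ := key f
      exact no_two a b hab⟩
  have h3 : IsEmpty ((F.comap Complex.ofRealHom : Subfield ℝ) →+* ℚ_[3]) :=
    ⟨fun f => by
      obtain ⟨a, b, hab⟩ := key f
      exact no_three a b hab⟩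
  have h4 : 4 ∣ Module.finrank ℚ F := by
    rw [finrank_eq F hK hI]
    obtain ⟨m, hm⟩ := even_degree (F.comap Complex.ofRealHom) hx' hy' hxy
    exact ⟨m, by omega⟩
  refine ⟨hI, ⟨x, y, hx', hy', hxy⟩, ?_, h2, h3, h4⟩
  by_contra hc
  push Not at hc
  have hx1 : x ∈ Set.range ((↑) : ℚ → ℝ) := not_not.mp (hc x hx')
  have hy1 : y ∈ Set.range ((↑) : ℚ → ℝ) := not_not.mp (hc y hy')
  obtain ⟨p, rfl⟩ := hx1
  obtain ⟨q, rfl⟩ := hy1
  exact no_rat p q (by exact_mod_cast hxy)

end Vale.Agent.Results.P355.FieldOfDefinition
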